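import Mathlib.LinearAlgebra.Matrix.Adjugate
import Mathlib.LinearAlgebra.Matrix.ToLin
import Mathlib.LinearAlgebra.Basis.VectorSpace
import Mathlib.Analysis.Analytic.Constructions
import Mathlib.Analysis.Complex.Basic

/-!
# P280C88: linear algebra for the row COV
-/

open Matrix

noncomputable section

namespace Vale.Agent.P280C88

variable {m κ : Type} [Fintype m] [Fintype κ] [DecidableEq m] [DecidableEq κ]

/-- The covectors `ρ · adj (T_I)`. -/
def beta (T : Matrix m κ ℂ) (ρ : κ → ℂ) : (κ → m) × κ → ℂ :=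
  fun q => (ρ ᵥ* adjugate (T.submatrix q.1 id)) q.2

omit [Fintype m] [DecidableEq m] in
theorem beta_change (T : Matrix m κ ℂ) (G : Matrix κ κ ℂ) (ρ : κ → ℂ) (l : ℂ) :
    beta (T * G) (l • (ρ ᵥ* G)) = (l * G.det) • beta T ρ := by
  funext q
  have h : (T * G).submatrix q.1 id = T.submatrix q.1 id * G := by
    ext a b; simp [Matrix.mul_apply]
  simp only [beta, h, adjugate_mul_distrib, smul_vecMul, vecMul_vecMul, ← Matrix.mul_assoc,
    mul_adjugate, Matrix.smul_mul, Matrix.one_mul, vecMul_smul, Pi.smul_apply, smul_eq_mul]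
  ring

omit [Fintype m] [DecidableEq m] in
theorem beta_pair (T : Matrix m κ ℂ) (ρ u : κ → ℂ) (I : κ → m) :
    ∑ k, beta T ρ (I, k) * (T *ᵥ u) (I k) = (T.submatrix I id).det * (ρ ⬝ᵥ u) := by
  have h : (fun k => (T *ᵥ u) (I k)) = T.submatrix I id *ᵥ u := by
    funext k; simp [mulVec, dotProduct]
  change (ρ ᵥ* adjugate (T.submatrix I id)) ⬝ᵥ (fun k => (T *ᵥ u) (I k)) = _
  rw [h, ← dotProduct_mulVec, mulVec_mulVec, adjugate_mul, smul_mulVec, one_mulVec,
    dotProduct_smul, smul_eq_mul]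

theorem ex_det (T : Matrix m κ ℂ) (h : ∀ u, T *ᵥ u = 0 → u = 0) :
    ∃ I : κ → m, (T.submatrix I id).det ≠ 0 := by
  obtain ⟨g, hg⟩ := (Matrix.toLin' T).exists_leftInverse_of_injective
    (LinearMap.ker_eq_bot'.2 fun u hu => h u (by simpa using hu))
  set A := LinearMap.toMatrix' g
  have hA : A * T = 1 := by
    have := congrArg LinearMap.toMatrix' hg
    rwa [LinearMap.toMatrix'_comp, LinearMap.toMatrix'_toLin', LinearMap.toMatrix'_id] at this
  by_contra hc
  push Not at hc
  have h1 : (A * T).det = 0 := by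
    have e : A * T = Matrix.of fun k => ∑ j, A k j • T j := by
      ext a b; simp [Matrix.mul_apply, Finset.sum_apply]
    rw [e]
    change (detRowAlternating (R := ℂ) (n := κ)).toMultilinearMap (fun k => ∑ j, A k j • T j) = 0
    rw [MultilinearMap.map_sum]
    refine Finset.sum_eq_zero fun I _ => ?_
    rw [MultilinearMap.map_smul_univ]
    have : (detRowAlternating (R := ℂ) (n := κ)).toMultilinearMap (fun k => T (I k)) = 0 := hc I
    rw [this, smul_zero]
  rw [hA, det_one] at h1
  exact one_ne_zero h1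

theorem beta_ne (T : Matrix m κ ℂ) (ρ : κ → ℂ) (h : ∀ u, T *ᵥ u = 0 → u = 0) (hρ : ρ ≠ 0) :
    beta T ρ ≠ 0 := by
  obtain ⟨I, hI⟩ := ex_det T h
  intro h0
  apply hρ
  funext k
  have := beta_pair T ρ (Pi.single k 1) I
  simp only [h0, Pi.zero_apply, zero_mul, Finset.sum_const_zero, dotProduct_single, mul_one] at this
  exact (mul_eq_zero.1 this.symm).resolve_left hI

omit [Fintype m] [DecidableEq m] in
/-- Two frames of the same subspace with proportional covectors. -/
theorem beta_prop (T T' : Matrix m κ ℂ) (ρ ρ' : κ → ℂ) (l : ℂ) (h : ∀ u', ∃ u, T' *ᵥ u' = T *ᵥ u ∧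
    ρ' ⬝ᵥ u' = l * (ρ ⬝ᵥ u)) : ∃ μ : ℂ, beta T' ρ' = μ • beta T ρ := by
  choose u h1 h2 using h
  let G : Matrix κ κ ℂ := Matrix.of fun a b => u (Pi.single b 1) a
  have e1 : T' = T * G := by
    ext a b
    have := congrFun (h1 (Pi.single b 1)) a
    simpa [mulVec, dotProduct, Matrix.mul_apply, G, Pi.single_apply] using this
  have e2 : ρ' = l • (ρ ᵥ* G) := by
    funext b
    have := h2 (Pi.single b 1)
    simpa [vecMul, dotProduct, G, Pi.single_apply] using this
  exact ⟨_, by rw [e1, e2, beta_change]⟩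

section an
variable {E : Type} [NormedAddCommGroup E] [NormedSpace ℂ E] {x : E}

omit [Fintype m] [DecidableEq m] in
theorem an_det {M : E → Matrix κ κ ℂ} (h : ∀ a b, AnalyticAt ℂ (fun t => M t a b) x) :
    AnalyticAt ℂ (fun t => (M t).det) x := by
  simp only [det_apply']
  exact Finset.analyticAt_fun_sum _ fun σ _ =>
    analyticAt_const.mul (Finset.analyticAt_fun_prod _ fun a _ => h _ _)

omit [Fintype m] [DecidableEq m] in
theorem an_beta {T : E → Matrix m κ ℂ} {ρ : E → κ → ℂ}
    (h : ∀ a b, AnalyticAt ℂ (fun t => T t a b) x) (hρ : ∀ a, AnalyticAt ℂ (fun t => ρ t a) x)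
    (q : (κ → m) × κ) : AnalyticAt ℂ (fun t => beta (T t) (ρ t) q) x := by
  simp only [beta, vecMul, dotProduct, adjugate_apply]
  refine Finset.analyticAt_fun_sum _ fun a _ => (hρ a).mul (an_det fun b c => ?_)
  simp only [updateRow_apply]
  split_ifs
  · exact analyticAt_const
  · exact h _ _

end an

end Vale.Agent.P280C88

end
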