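import Vale.Agent.P280A30.Rows
import Vale.Agent.P280C88.Lin

/-!
# P280C88: the quotient map on representatives of tangent vectors
-/

open scoped Manifold ContDiff Topology
open MvPolynomial Matrix Filter
open Vale.Agent.P272.K Vale.Agent.P285.H281.FD Vale.Agent.P300.Final Vale.Agent.P299G40
open Vale.Agent.P280Z (QuoC)
open Vale.Agent.P009.AV (aff)
open Vale.Agent.P280A

noncomputable section

namespace Vale.Agent.P280C88

variable {n N : ℕ} {X : Type} [TopologicalSpace X] [ChartedSpace (Cm n) X]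

/-- The conclusion of `TAN`. -/
def Tn (n : ℕ) [ChartedSpace (Cm n) X] (Z : Set (PN N)) (Φ : X → PN N) : Prop :=
  ∀ (e : Chart n X) (x : X) (i : Fin (N + 1)), At e x → (Φ x).rep i ≠ 0 →
    (∀ w, w ∈ tangent Z (Φ x) ↔
      ∃ (κ : ℂ) (ξ : Cm n), w = κ • (Φ x).rep + (Φ x).rep i • dAff Φ e i x ξ) ∧
    (∀ (κ : ℂ) (ξ : Cm n), κ • (Φ x).rep + (Φ x).rep i • dAff Φ e i x ξ = 0 → κ = 0 ∧ ξ = 0) ∧
    ∀ (e' : Chart n X) (i' : Fin (N + 1)), At e' x → (Φ x).rep i' ≠ 0 → ∀ ξ : Cm n, ∃ κ : ℂ,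
      (Φ x).rep i • dAff Φ e i x ξ =
        κ • (Φ x).rep + (Φ x).rep i' • dAff Φ e' i' x (jacM e e' x *ᵥ ξ)

/-- A nonzero coordinate. -/
def ix (z : PN N) : Fin (N + 1) := Classical.choose (Function.ne_iff.1 z.rep_nonzero)

theorem ix_ne (z : PN N) : z.rep (ix z) ≠ 0 := Classical.choose_spec (Function.ne_iff.1 z.rep_nonzero)

theorem at_chart (x : X) : At (chartAt (Cm n) x) x := ⟨chart_mem_atlas _ _, mem_chart_source _ _⟩

/-- The representative of the tangent vector `ξ`. -/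
def tv (Φ : X → PN N) (e : Chart n X) (i : Fin (N + 1)) (x : X) (κ : ℂ) (ξ : Cm n) :
    Fin (N + 1) → ℂ := κ • (Φ x).rep + (Φ x).rep i • dAff Φ e i x ξ

/-- The tangent vector of the manifold represented by `w`. -/
def xi (n : ℕ) [ChartedSpace (Cm n) X] (Φ : X → PN N) (x : X) (w : Fin (N + 1) → ℂ) : Cm n :=
  Classical.epsilon fun ξ => ∃ κ, w = tv Φ (chartAt (Cm n) x) (ix (Φ x)) x κ ξ

variable {Z : Set (PN N)} {Φ : X → PN N} {e : Chart n X} {x : X} {i : Fin (N + 1)}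

theorem xi_tv (hT : Tn n Z Φ) (he : At e x) (hi : (Φ x).rep i ≠ 0) (κ : ℂ) (ξ : Cm n) :
    xi n Φ x (tv Φ e i x κ ξ) = jacM e (chartAt (Cm n) x) x *ᵥ ξ := by
  obtain ⟨k, hk⟩ := (hT e x i he hi).2.2 _ _ (at_chart x) (ix_ne _) ξ
  have h1 : tv Φ e i x κ ξ = tv Φ (chartAt (Cm n) x) (ix (Φ x)) x (κ + k)
      (jacM e (chartAt (Cm n) x) x *ᵥ ξ) := by
    rw [tv, tv, hk, add_smul, add_assoc]
  obtain ⟨k', hk'⟩ : ∃ k', tv Φ e i x κ ξ = tv Φ (chartAt (Cm n) x) (ix (Φ x)) x k'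
      (xi n Φ x (tv Φ e i x κ ξ)) :=
    Classical.epsilon_spec (p := fun η => ∃ k', tv Φ e i x κ ξ =
      tv Φ (chartAt (Cm n) x) (ix (Φ x)) x k' η) ⟨_, _, h1⟩
  have h2 := ((hT _ x _ (at_chart x) (ix_ne _)).2.1 (k' - (κ + k))
    (xi n Φ x (tv Φ e i x κ ξ) - jacM e (chartAt (Cm n) x) x *ᵥ ξ) (by
      have := hk'.symm.trans h1
      simp only [tv] at this
      rw [map_sub, smul_sub, sub_smul, sub_add_sub_comm]
      exact sub_eq_zero.2 this)).2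
  exact sub_eq_zero.1 h2

/-- The frame of the tangent space of the cone. -/
def Tm (Φ : X → PN N) (e : Chart n X) (i : Fin (N + 1)) (x : X) :
    Matrix (Fin (N + 1)) (Option (Fin n)) ℂ :=
  fun j k => k.elim (aff i (Φ x) j) fun k => dAff Φ e i x (Pi.single k 1) j

/-- The covector `(0, α)`. -/
def rho (v : Cm n) : Option (Fin n) → ℂ := fun k => k.elim 0 v

theorem rho_dot (v : Cm n) (u : Option (Fin n) → ℂ) : rho v ⬝ᵥ u = v ⬝ᵥ fun k => u (some k) := by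
  simp [rho, dotProduct, Fintype.sum_option]

theorem rho_ne {v : Cm n} (h : v ≠ 0) : rho v ≠ 0 := fun h0 => h (funext fun k => congrFun h0 (some k))

omit [ChartedSpace (Cm n) X] in
theorem smul_aff {z : PN N} (hi : z.rep i ≠ 0) : z.rep i • aff i z = z.rep := by
  funext j
  simp only [Pi.smul_apply, aff, smul_eq_mul]
  field_simp

theorem Tm_mul (hi : (Φ x).rep i ≠ 0) (u : Option (Fin n) → ℂ) :
    (Φ x).rep i • (Tm Φ e i x *ᵥ u) = tv Φ e i x (u none) fun k => u (some k) := by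
  have h : Tm Φ e i x *ᵥ u = u none • aff i (Φ x) + dAff Φ e i x fun k => u (some k) := by
    have : (fun k => u (some k)) = ∑ k, u (some k) • (Pi.single k 1 : Cm n) := by
      funext k; simp [Finset.sum_apply, Pi.single_apply]
    rw [this, map_sum]
    funext j
    simp [Tm, mulVec, dotProduct, Fintype.sum_option, Finset.sum_apply, mul_comm]
  rw [h, smul_add, smul_comm, smul_aff hi, tv]

theorem Tm_inj (hT : Tn n Z Φ) (he : At e x) (hi : (Φ x).rep i ≠ 0) (u : Option (Fin n) → ℂ)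
    (h : Tm Φ e i x *ᵥ u = 0) : u = 0 := by
  have h1 := Tm_mul (e := e) hi u
  rw [h, smul_zero] at h1
  obtain ⟨a, b⟩ := (hT e x i he hi).2.1 _ _ h1.symm
  funext k
  cases k with
  | none => exact a
  | some k => exact congrFun b k

variable {S : Type} [TopologicalSpace S] [ChartedSpace (Cm 1) S] {f : S → X} {L : Bd S}
  {α : Chart n X → L.ι → S → Cm n} {a : L.ι} {c : S}

/-- The quotient map. -/
def Am (Φ : X → PN N) (f : S → X) (α : Chart n X → L.ι → S → Cm n) (a : L.ι) (c : S)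
    (w : Fin (N + 1) → ℂ) : ℂ := α (chartAt (Cm n) (f c)) a c ⬝ᵥ xi n Φ (f c) w

theorem Am_tv (hT : Tn n Z Φ) (hQ : QuoC n f L α) (he : At e (f c)) (hi : (Φ (f c)).rep i ≠ 0)
    (ha : c ∈ L.U a) (κ : ℂ) (ξ : Cm n) : Am Φ f α a c (tv Φ e i (f c) κ ξ) = α e a c ⬝ᵥ ξ := by
  rw [Am, xi_tv hT he hi, hQ.chg e _ a c he (at_chart _) ha, dotProduct_mulVec]

theorem Am_fr (hQ : QuoC n f L α) {b : L.ι} (ha : c ∈ L.U a) (hb : c ∈ L.U b) (w : Fin (N + 1) → ℂ) :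
    Am Φ f α a c w = L.g a b c * Am Φ f α b c w := by
  rw [Am, Am, hQ.fr _ a b c (at_chart _) ha hb, smul_dotProduct, smul_eq_mul]

/-- Every tangent vector in the frame. -/
theorem ex_u (hT : Tn n Z Φ) (hQ : QuoC n f L α) (he : At e (f c)) (hi : (Φ (f c)).rep i ≠ 0)
    (ha : c ∈ L.U a) {w : Fin (N + 1) → ℂ} (hw : w ∈ tangent Z (Φ (f c))) :
    ∃ u, w = (Φ (f c)).rep i • (Tm Φ e i (f c) *ᵥ u) ∧ Am Φ f α a c w = rho (α e a c) ⬝ᵥ u := by
  obtain ⟨κ, ξ, rfl⟩ := ((hT e _ i he hi).1 w).1 hw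
  refine ⟨fun k => k.elim κ ξ, ?_, ?_⟩
  · rw [Tm_mul hi]; rfl
  · rw [rho_dot]; exact Am_tv hT hQ he hi ha κ ξ

theorem of_u (hT : Tn n Z Φ) (hQ : QuoC n f L α) (he : At e (f c)) (hi : (Φ (f c)).rep i ≠ 0)
    (ha : c ∈ L.U a) (u : Option (Fin n) → ℂ) :
    (Φ (f c)).rep i • (Tm Φ e i (f c) *ᵥ u) ∈ tangent Z (Φ (f c)) ∧
      Am Φ f α a c ((Φ (f c)).rep i • (Tm Φ e i (f c) *ᵥ u)) = rho (α e a c) ⬝ᵥ u := by
  rw [Tm_mul hi, rho_dot]
  exact ⟨((hT e _ i he hi).1 _).2 ⟨_, _, rfl⟩, Am_tv hT hQ he hi ha _ _⟩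

/-- The covectors in two frames are proportional. -/
theorem beta_fr (hT : Tn n Z Φ) (hQ : QuoC n f L α) (he : At e (f c)) (hi : (Φ (f c)).rep i ≠ 0)
    (ha : c ∈ L.U a) {e' : Chart n X} {i' : Fin (N + 1)} {a' : L.ι} (he' : At e' (f c))
    (hi' : (Φ (f c)).rep i' ≠ 0) (ha' : c ∈ L.U a') : ∃ μ : ℂ,
    beta (Tm Φ e' i' (f c)) (rho (α e' a' c)) = μ • beta (Tm Φ e i (f c)) (rho (α e a c)) := by
  refine beta_prop _ _ _ _ (L.g a' a c * ((Φ (f c)).rep i' / (Φ (f c)).rep i)) fun u' => ?_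
  obtain ⟨h1, h2⟩ := of_u hT hQ he' hi' ha' u'
  obtain ⟨u, h3, h4⟩ := ex_u hT hQ he hi ha h1
  refine ⟨((Φ (f c)).rep i / (Φ (f c)).rep i') • u, ?_, ?_⟩
  · rw [mulVec_smul, div_eq_inv_mul, mul_smul, ← h3, smul_smul, inv_mul_cancel₀ hi', one_smul]
  · rw [← h2, Am_fr hQ ha' ha, h4, dotProduct_smul, smul_eq_mul]
    field_simp

theorem ex_H (hT : Tn n Z Φ) (hQ : QuoC n f L α) (hL : IsLB 1 L) (hZ : Φ (f c) ∈ Z) :
    ∃ H : Submodule ℂ (Fin (N + 1) → ℂ), InPT n Z (Φ (f c)) H ∧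
      ∀ a, c ∈ L.U a → ∀ w ∈ tangent Z (Φ (f c)), w ∈ H ↔ Am Φ f α a c w = 0 := by
  obtain ⟨a, ha⟩ := hL.cover c
  have he := at_chart (n := n) (f c)
  have hi := ix_ne (Φ (f c))
  set e := chartAt (Cm n) (f c)
  set i := ix (Φ (f c))
  let l : (Option (Fin n) → ℂ) →ₗ[ℂ] ℂ := (dotProductBilin ℂ ℂ (rho (α e a c)) :)
  have hl : ∀ u, l u = rho (α e a c) ⬝ᵥ u := fun u => rfl
  let T : (Option (Fin n) → ℂ) →ₗ[ℂ] (Fin (N + 1) → ℂ) :=
    (Φ (f c)).rep i • Matrix.mulVecLin (Tm Φ e i (f c))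
  have hTu : ∀ u, T u = (Φ (f c)).rep i • (Tm Φ e i (f c) *ᵥ u) := fun u => rfl
  have hinj : Function.Injective T := (injective_iff_map_eq_zero T).2 fun u hu =>
    Tm_inj hT he hi u ((smul_eq_zero.1 hu).resolve_left hi)
  have hl0 : l ≠ 0 := fun h0 => rho_ne (hQ.nz e a c he ha) (funext fun k => by
    have := hl (Pi.single k 1)
    rw [h0] at this
    simpa using this.symm)
  have key : ∀ w ∈ tangent Z (Φ (f c)), w ∈ (LinearMap.ker l).map T ↔ Am Φ f α a c w = 0 := by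
    intro w hw
    constructor
    · rintro ⟨u, hu, rfl⟩
      rw [hTu, (of_u hT hQ he hi ha u).2]; exact hu
    · intro h0
      obtain ⟨u, h3, h4⟩ := ex_u hT hQ he hi ha hw
      exact ⟨u, h4.symm.trans h0, h3.symm⟩
  refine ⟨(LinearMap.ker l).map T, ⟨hZ, ⟨fun k => k.elim 1 0, ?_, ?_⟩, ?_, ?_⟩, fun b hb w hw => ?_⟩
  · refine LinearMap.mem_ker.2 ?_
    rw [hl, rho_dot]; exact dotProduct_zero _
  · rw [hTu, Tm_mul hi, tv]
    change (1 : ℂ) • _ + _ • dAff Φ e i (f c) 0 = _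
    rw [map_zero, smul_zero, add_zero, one_smul]
  · rintro _ ⟨u, -, rfl⟩
    exact (of_u hT hQ he hi ha u).1
  · rw [← (Submodule.equivMapOfInjective T hinj _).finrank_eq]
    have h1 := Module.Dual.finrank_ker_add_one_of_ne_zero hl0
    simpa using h1
  · rw [key w hw, Am_fr hQ hb ha, mul_eq_zero, or_iff_right (hL.ne_zero _ _ _ hb ha)]

end Vale.Agent.P280C88

end
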