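import Vale.Agent.P280C88.Hol

/-!
# P280C88: the row COV
-/

open scoped Manifold ContDiff Topology
open MvPolynomial Matrix Filter
open Vale.Agent.P272.K Vale.Agent.P285.H281.FD Vale.Agent.P300.Final Vale.Agent.P299G40
open Vale.Agent.P280Z (QuoC)
open Vale.Agent.P009.AV (aff)
open Vale.Agent.P280A.C66 Vale.Agent.P280C88

noncomputable section

namespace Vale.Agent.P280A

theorem cov88 (tan : TAN) (map : MAP) : COV := by
  intro n N K Z X _ _ _ Φ S _ _ _ _ _ _ Θ f L α hZ hA iΘ hΘ hf hL hQ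
  have hT : Tn n Z Φ := tan n N Z X Φ hZ hA
  have hΦ := hA.2.1
  choose H hH1 hH2 using fun c : S =>
    ex_H (c := c) hT hQ hL (hA.2.2 ▸ Set.mem_range_self (f c))
  refine ⟨H, Am Φ f α, hH1, fun a c => hH2 c a, fun a b c w ha hb => Am_fr hQ ha hb w, fun c₀ => ?_⟩
  obtain ⟨M, ⟨σ⟩⟩ : ∃ M, Nonempty (Fin (M + 1) ≃
      (Option (Fin n) → Fin (N + 1)) × Option (Fin n)) :=
    ⟨_, ⟨(Fintype.equivFinOfCardEq (Nat.succ_pred_eq_of_pos Fintype.card_pos).symm).symm⟩⟩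
  obtain ⟨Ψ, hΨ, key⟩ := ex_psi hΦ hf hT hQ hL σ
  obtain ⟨G, hG, hGΨ⟩ := map 1 K M S Θ Ψ iΘ hΘ hΨ
  obtain ⟨F, d, hF, h0, hy⟩ := hG (Θ c₀) ⟨c₀, rfl⟩
  have prop : ∀ c e i a, At e (f c) → (Φ (f c)).rep i ≠ 0 → c ∈ L.U a →
      ∃ μ : ℂ, val F (Θ c) = μ • (Bt Φ f α e i a c ∘ σ) := fun c e i a h1 h2 h3 => by
    by_cases h : val F (Θ c) = 0
    · exact ⟨0, by rw [h, zero_smul]⟩
    obtain ⟨k, hk⟩ := key c e i a h1 h2 h3
    obtain ⟨μ, hμ⟩ := (Projectivization.mk_eq_mk_iff' _ _ _ _ _).1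
      ((hy _ ⟨c, rfl⟩ h).symm.trans ((hGΨ c).trans hk))
    exact ⟨μ, hμ.symm⟩
  obtain ⟨I, hI⟩ := ex_det _ (Tm_inj hT (at_chart (f c₀)) (ix_ne (Φ (f c₀))))
  let P : Fin (N + 1) → MvPolynomial (Fin (K + 1)) ℂ :=
    fun j => ∑ k, if I k = j then F (σ.symm (I, k)) else 0
  have hP : ∀ y w, val P y ⬝ᵥ w = ∑ k, val F y (σ.symm (I, k)) * w (I k) := fun y w => by
    simp only [val, dotProduct, P, map_sum, Finset.sum_mul]
    rw [Finset.sum_comm]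
    refine Finset.sum_congr rfl fun k _ => ?_
    rw [Finset.sum_eq_single (I k) (fun j _ h => by rw [if_neg h.symm, map_zero, zero_mul])
      (by simp), if_pos rfl]
  have pair : ∀ c e i a (μ : ℂ), At e (f c) → (Φ (f c)).rep i ≠ 0 → c ∈ L.U a →
      val F (Θ c) = μ • (Bt Φ f α e i a c ∘ σ) → ∀ w ∈ tangent Z (Φ (f c)), val P (Θ c) ⬝ᵥ w =
        μ * (Φ (f c)).rep i * ((Tm Φ e i (f c)).submatrix I id).det * Am Φ f α a c w := by
    intro c e i a μ h1 h2 h3 h4 w hw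
    obtain ⟨u, rfl, h5⟩ := ex_u hT hQ h1 h2 h3 hw
    rw [hP, h4, h5, mul_assoc _ _ (_ ⬝ᵥ u), ← beta_pair, Finset.mul_sum]
    refine Finset.sum_congr rfl fun k _ => ?_
    simp only [Pi.smul_apply, Function.comp, Equiv.apply_symm_apply, smul_eq_mul, Bt]
    ring
  have exw : ∀ c a, c ∈ L.U a → ∃ w ∈ tangent Z (Φ (f c)), Am Φ f α a c w ≠ 0 := fun c a ha => by
    obtain ⟨k, hk⟩ := Function.ne_iff.1 (rho_ne (hQ.nz _ a c (at_chart _) ha))
    obtain ⟨h1, h2⟩ := of_u hT hQ (at_chart _) (ix_ne _) ha (Pi.single k 1)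
    exact ⟨_, h1, by rw [h2]; simpa using hk⟩
  set l := ix (Θ c₀)
  set i := ix (Φ (f c₀))
  let Y : Set S := {c | (∀ w ∈ tangent Z (Φ (f c)), val P (Θ c) ⬝ᵥ w = 0) ∨ (Θ c).rep l = 0 ∨
    (Φ (f c)).rep i = 0}
  have loc : ∀ p a, p ∈ L.U a → ∃ g b u v : S → ℂ, An g p ∧ An b p ∧ An u p ∧ An v p ∧
      ∀ᶠ c in 𝓝 p, b c ≠ 0 ∧ (c ∈ Y ↔ g c * (u c * v c) = 0) ∧ ∃ s t : ℂ, s ≠ 0 ∧ t ≠ 0 ∧
        (Θ c).rep l = s * u c ∧ (Φ (f c)).rep i = t * v c ∧ ∀ w ∈ tangent Z (Φ (f c)),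
          val P (Θ c) ⬝ᵥ w = s ^ d * t * (g c / b c) * Am Φ f α a c w := by
    intro p a ha
    have he := at_chart (n := n) (f p)
    have hi := ix_ne (Φ (f p))
    have hl := ix_ne (Θ p)
    set e := chartAt (Cm n) (f p)
    set i' := ix (Φ (f p))
    set l' := ix (Θ p)
    obtain ⟨q, hq⟩ := Function.ne_iff.1 (Bt_ne hT hQ he hi ha)
    obtain ⟨a1, a2⟩ := an_aff (f := id) (p := p) hΘ contMDiff_id hl
    obtain ⟨b1, b2⟩ := an_aff hΦ hf hi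
    have hb := an_Bt hΦ hf hQ he hi ha q
    refine ⟨fun c => eval (aff l' (Θ c)) (F (σ.symm q)) * ((Tm Φ e i' (f c)).submatrix I id).det,
      fun c => Bt Φ f α e i' a c q, fun c => aff l' (Θ c) l, fun c => aff i' (Φ (f c)) i,
      (An.eval a2 _).mul (An.det fun j k => an_Tm hΦ hf he hi _ _), hb, a2 l, b2 i, ?_⟩
    filter_upwards [a1, b1, ev_at hf he, (hL.isOpen a).mem_nhds ha, hb.cont.eventually_ne hq]
      with c c1 c2 c3 c4 c5
    replace c1 : (Θ c).rep l' ≠ 0 := c1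
    replace c5 : Bt Φ f α e i' a c q ≠ 0 := c5
    obtain ⟨μ, hμ⟩ := prop c e i' a c3 c2 c4
    have e1 : (Θ c).rep l = (Θ c).rep l' * aff l' (Θ c) l := (mul_div_cancel₀ _ c1).symm
    have e2 : (Φ (f c)).rep i = (Φ (f c)).rep i' * aff i' (Φ (f c)) i := (mul_div_cancel₀ _ c2).symm
    have e3 : ∀ w ∈ tangent Z (Φ (f c)), val P (Θ c) ⬝ᵥ w = (Θ c).rep l' ^ d * (Φ (f c)).rep i' *
        (eval (aff l' (Θ c)) (F (σ.symm q)) * ((Tm Φ e i' (f c)).submatrix I id).det /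
          Bt Φ f α e i' a c q) * Am Φ f α a c w := fun w hw => by
      have h1 : eval (Θ c).rep (F (σ.symm q)) = μ * Bt Φ f α e i' a c q := by
        simpa [val] using congrFun hμ (σ.symm q)
      rw [pair c e i' a μ c3 c2 c4 hμ w hw, P299G50.eval_aff (hF _), h1, inv_pow]
      field_simp
    refine ⟨c5, ?_, _, _, c1, c2, e1, e2, e3⟩
    refine (or_congr ⟨fun h => ?_, fun h w hw => ?_⟩ (or_congr ?_ ?_)).trans
      (mul_eq_zero.trans (or_congr_right mul_eq_zero)).symm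
    · obtain ⟨w, h1, h2⟩ := exw c a c4
      have h3 := (e3 w h1).symm.trans (h w h1)
      simpa only [mul_eq_zero, pow_eq_zero_iff', c1, c2, h2, div_eq_zero_iff, c5, false_and,
        or_false, false_or] using h3
    · rw [e3 w hw, h, zero_div, mul_zero, zero_mul]
    · rw [e1, mul_eq_zero, or_iff_right c1]
    · rw [e2, mul_eq_zero, or_iff_right c2]
  have hc₀ : c₀ ∉ Y := by
    obtain ⟨a, ha⟩ := hL.cover c₀
    obtain ⟨μ, hμ⟩ := prop c₀ _ i a (at_chart _) (ix_ne _) ha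
    obtain ⟨w, h1, h2⟩ := exw c₀ a ha
    rintro (h | h | h)
    · have h3 := (pair c₀ _ i a μ (at_chart _) (ix_ne _) ha hμ w h1).symm.trans (h w h1)
      have h4 : μ ≠ 0 := fun h => h0 (by rw [hμ, h, zero_smul])
      exact mul_ne_zero (mul_ne_zero (mul_ne_zero h4 (ix_ne _)) hI) h2 h3
    · exact ix_ne _ h
    · exact ix_ne _ h
  obtain ⟨fin, off⟩ := fin_of hc₀ fun p => by
    obtain ⟨a, ha⟩ := hL.cover p
    obtain ⟨g, b, u, v, h1, -, h3, h4, h5⟩ := loc p a ha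
    exact ⟨_, h1.mul (h3.mul h4), h5.mono fun c hc => hc.2.1⟩
  refine ⟨P, d, l, i, Y, fun j => IsHomogeneous.sum _ _ _ fun k _ => ?_, ix_ne _, ix_ne _, fin, hc₀,
    fun c hc w hw => ?_, fun p a ha => ?_⟩
  · split_ifs
    · exact hF _
    · exact isHomogeneous_zero _ _ _
  · obtain ⟨a, ha⟩ := hL.cover c
    obtain ⟨g, b, u, v, -, -, -, -, h5⟩ := loc c a ha
    obtain ⟨h1, h2, s, t, h3, h4, -, -, h6⟩ := h5.self_of_nhds
    have h7 : g c ≠ 0 := left_ne_zero_of_mul (mt h2.2 hc)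
    rw [hH2 c a ha w hw, h6 w hw, mul_eq_zero, or_iff_right
      (mul_ne_zero (mul_ne_zero (pow_ne_zero _ h3) h4) (div_ne_zero h7 h1))]
  · obtain ⟨g, b, u, v, h1, h2, h3, h4, h5⟩ := loc p a ha
    have nz : ∀ c, b c ≠ 0 → g c * (u c * v c) ≠ 0 → g c * (b c * (u c ^ d * v c)) ≠ 0 :=
      fun c k1 k2 => mul_ne_zero (left_ne_zero_of_mul k2) (mul_ne_zero k1 (mul_ne_zero
        (pow_ne_zero _ (left_ne_zero_of_mul (right_ne_zero_of_mul k2)))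
        (right_ne_zero_of_mul (right_ne_zero_of_mul k2))))
    obtain ⟨m, m1, m2⟩ := ord_div h1 (h2.mul ((h3.pow d).mul h4)) (by
      filter_upwards [off p, nhdsWithin_le_nhds h5] with c k1 k2 using nz c k2.1 (mt k2.2.1.2 k1))
    refine ⟨_, m, m1, fun e => m2 (nz p h5.self_of_nhds.1
      (mt h5.self_of_nhds.2.1.2 (e ▸ hc₀))), ?_⟩
    filter_upwards [off p, nhdsWithin_le_nhds h5] with c k1 ⟨k2, k3, s, t, k4, k5, k6, k7, k8⟩ w hw
    have k9 := mt k3.2 k1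
    have ku := left_ne_zero_of_mul (right_ne_zero_of_mul k9)
    have kv := right_ne_zero_of_mul (right_ne_zero_of_mul k9)
    rw [k8 w hw, k6, k7, mul_pow]
    field_simp

end Vale.Agent.P280A

end
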