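import Vale.Agent.P280C88.AH
import Vale.Agent.P280C66.Kit
import Vale.Agent.P299G50.Hol

/-!
# P280C88: the covectors depend holomorphically on the point
-/

open scoped Manifold ContDiff Topology
open MvPolynomial Matrix Filter
open Vale.Agent.P272.K Vale.Agent.P285.H281.FD Vale.Agent.P300.Final Vale.Agent.P299G40
open Vale.Agent.P280Z (QuoC)
open Vale.Agent.P009.AV (aff)
open Vale.Agent.P280A Vale.Agent.P280A.C66

noncomputable section

namespace Vale.Agent.P280C88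

variable {n N : ℕ} {X : Type} [TopologicalSpace X] [ChartedSpace (Cm n) X]
  [IsManifold 𝓘(ℂ, Cm n) ω X] {S : Type} [TopologicalSpace S] [ChartedSpace (Cm 1) S]
  [IsManifold 𝓘(ℂ, Cm 1) ω S] {f : S → X} {Φ : X → PN N} {e : Chart n X} {i : Fin (N + 1)} {p : S}

omit [IsManifold 𝓘(ℂ, Cm 1) ω S] in
theorem an_congr {g h : S → ℂ} (hg : An g p) (H : ∀ᶠ x in 𝓝 p, g x = h x) : An h p := fun c hc => by
  refine (hg c hc).congr ?_
  have : Tendsto c.symm (𝓝 (c p)) (𝓝 p) := by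
    simpa only [ContinuousAt, c.left_inv hc.2] using c.continuousAt_symm (c.map_source hc.2)
  exact this.eventually H

theorem an_comp (hf : ContMDiff 𝓘(ℂ, Cm 1) 𝓘(ℂ, Cm n) ω f) (he : At e (f p)) {G : Cm n → ℂ}
    (hG : AnalyticAt ℂ G (e (f p))) : An (fun c => G (e (f c))) p := fun c hc => by
  have h1 : ContMDiffAt 𝓘(ℂ, Cm 1) 𝓘(ℂ, Cm n) ω (fun y => e (f y)) (c.symm (c p)) := by
    rw [c.left_inv hc.2]
    exact (contMDiffAt_of_mem_maximalAtlas (IsManifold.subset_maximalAtlas he.1) he.2).comp p (hf p)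
  have h2 := (h1.comp (c p) (contMDiffAt_symm_of_mem_maximalAtlas
      (IsManifold.subset_maximalAtlas hc.1) (c.map_source hc.2))).contDiffAt.analyticAt
  exact AnalyticAt.fun_comp (g := G) (f := fun t => e (f (c.symm t)))
    (by rwa [c.left_inv hc.2]) h2

omit [IsManifold 𝓘(ℂ, Cm n) ω X] [IsManifold 𝓘(ℂ, Cm 1) ω S] in
theorem ev_at (hf : ContMDiff 𝓘(ℂ, Cm 1) 𝓘(ℂ, Cm n) ω f) (he : At e (f p)) :
    ∀ᶠ c in 𝓝 p, At e (f c) :=
  ((hf p).continuousAt.eventually (e.open_source.mem_nhds he.2)).mono fun _ h => ⟨he.1, h⟩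

theorem an_aff (hΦ : IsProjectiveImmersion (Cm n) Φ) (hf : ContMDiff 𝓘(ℂ, Cm 1) 𝓘(ℂ, Cm n) ω f)
    (hi : (Φ (f p)).rep i ≠ 0) :
    (∀ᶠ c in 𝓝 p, (Φ (f c)).rep i ≠ 0) ∧ ∀ j, An (fun c => aff i (Φ (f c)) j) p := by
  have he := at_chart (n := n) (f p)
  obtain ⟨h1, h2⟩ := P299G50.aff_holo hΦ he hi
  refine ⟨?_, fun j => an_congr (an_comp hf he (h2 j).analyticAt) ?_⟩
  · filter_upwards [(((chartAt (Cm n) (f p)).continuousAt he.2).comp
      (hf p).continuousAt).eventually h1, ev_at hf he] with c a b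
    rwa [Function.comp, (chartAt (Cm n) (f p)).left_inv b.2] at a
  · filter_upwards [ev_at hf he] with c b
    rw [(chartAt (Cm n) (f p)).left_inv b.2]

theorem an_Tm (hΦ : IsProjectiveImmersion (Cm n) Φ) (hf : ContMDiff 𝓘(ℂ, Cm 1) 𝓘(ℂ, Cm n) ω f)
    (he : At e (f p)) (hi : (Φ (f p)).rep i ≠ 0) (j : Fin (N + 1)) (k : Option (Fin n)) :
    An (fun c => Tm Φ e i (f c) j k) p := by
  cases k with
  | none => exact (an_aff hΦ hf hi).2 j
  | some k =>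
    have h1 : AnalyticAt ℂ (fun z => aff i (Φ (e.symm z))) (e (f p)) :=
      AnalyticAt.pi fun j => ((P299G50.aff_holo hΦ he hi).2 j).analyticAt
    have h2 : AnalyticAt ℂ (fun z => fderiv ℂ (fun z => aff i (Φ (e.symm z))) z (Pi.single k 1) j)
        (e (f p)) :=
      (((ContinuousLinearMap.proj (R := ℂ) (φ := fun _ : Fin (N + 1) => ℂ) j).comp
        (ContinuousLinearMap.apply ℂ (Fin (N + 1) → ℂ) (Pi.single k 1 : Cm n))).analyticAt _).comp
        h1.fderiv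
    exact an_comp hf he h2

variable {L : Bd S} {α : Chart n X → L.ι → S → Cm n} {a : L.ι} {Z : Set (PN N)}

/-- The covectors along the curve. -/
def Bt (Φ : X → PN N) (f : S → X) (α : Chart n X → L.ι → S → Cm n) (e : Chart n X)
    (i : Fin (N + 1)) (a : L.ι) (c : S) : (Option (Fin n) → Fin (N + 1)) × Option (Fin n) → ℂ :=
  beta (Tm Φ e i (f c)) (rho (α e a c))

theorem an_Bt (hΦ : IsProjectiveImmersion (Cm n) Φ) (hf : ContMDiff 𝓘(ℂ, Cm 1) 𝓘(ℂ, Cm n) ω f)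
    (hQ : QuoC n f L α) (he : At e (f p)) (hi : (Φ (f p)).rep i ≠ 0) (ha : p ∈ L.U a)
    (q : (Option (Fin n) → Fin (N + 1)) × Option (Fin n)) :
    An (fun c => Bt Φ f α e i a c q) p := fun c hc => by
  refine an_beta (T := fun t => Tm Φ e i (f (c.symm t))) (ρ := fun t => rho (α e a (c.symm t)))
    (fun j k => an_Tm hΦ hf he hi j k c hc) (fun k => ?_) q
  cases k with
  | none => exact analyticAt_const
  | some k => exact analyticAt_pi_iff.1 (hQ.hol e a p he ha c hc) k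

omit [IsManifold 𝓘(ℂ, Cm n) ω X] [IsManifold 𝓘(ℂ, Cm 1) ω S] in
theorem Bt_ne (hT : Tn n Z Φ) (hQ : QuoC n f L α) (he : At e (f p)) (hi : (Φ (f p)).rep i ≠ 0)
    (ha : p ∈ L.U a) : Bt Φ f α e i a p ≠ 0 :=
  beta_ne _ _ (Tm_inj hT he hi) (rho_ne (hQ.nz e a p he ha))

/-- The covectors define a holomorphic map to a projective space. -/
theorem ex_psi (hΦ : IsProjectiveImmersion (Cm n) Φ) (hf : ContMDiff 𝓘(ℂ, Cm 1) 𝓘(ℂ, Cm n) ω f)
    (hT : Tn n Z Φ) (hQ : QuoC n f L α) (hL : IsLB 1 L) {M : ℕ}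
    (σ : Fin (M + 1) ≃ (Option (Fin n) → Fin (N + 1)) × Option (Fin n)) :
    ∃ Ψ : S → PN M, HolP 1 Ψ ∧ ∀ c e i a, At e (f c) → (Φ (f c)).rep i ≠ 0 → c ∈ L.U a →
      ∃ h, Ψ c = Projectivization.mk ℂ (Bt Φ f α e i a c ∘ σ) h := by
  choose A hA using hL.cover
  have ne : ∀ c e i a, At e (f c) → (Φ (f c)).rep i ≠ 0 → c ∈ L.U a →
      Bt Φ f α e i a c ∘ σ ≠ 0 := fun c e i a h1 h2 h3 h =>
    Bt_ne hT hQ h1 h2 h3 (funext fun q => by simpa using congrFun h (σ.symm q))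
  let Ψ : S → PN M := fun c => Projectivization.mk ℂ _ (ne c _ _ _ (at_chart _) (ix_ne _) (hA c))
  have key : ∀ c e i a, At e (f c) → (Φ (f c)).rep i ≠ 0 → c ∈ L.U a →
      ∃ h, Ψ c = Projectivization.mk ℂ (Bt Φ f α e i a c ∘ σ) h := fun c e i a h1 h2 h3 => by
    obtain ⟨μ, hμ⟩ := beta_fr hT hQ h1 h2 h3 (at_chart _) (ix_ne _) (hA c)
    exact ⟨ne c e i a h1 h2 h3, (Projectivization.mk_eq_mk_iff' _ _ _ _ _).2
      ⟨μ, funext fun q => (congrFun hμ (σ q)).symm⟩⟩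
  refine ⟨Ψ, fun x => ⟨fun y => Bt Φ f α (chartAt (Cm n) (f x)) (ix (Φ (f x))) (A x) y ∘ σ,
    fun c hc => AnalyticAt.pi fun q => an_Bt hΦ hf hQ (at_chart _) (ix_ne _) (hA x) (σ q) c hc, ?_⟩,
    key⟩
  filter_upwards [ev_at hf (at_chart (f x)), (an_aff hΦ hf (ix_ne (Φ (f x)))).1,
    (hL.isOpen _).mem_nhds (hA x)] with y h1 h2 h3 using key y _ _ _ h1 h2 h3

end Vale.Agent.P280C88

end
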