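import Vale.Agent.P280C88.Hol
import Vale.Agent.P280B30.Rows

/-!
# P280C88: the row LIFT
-/

open scoped Manifold ContDiff Topology
open MvPolynomial Matrix Filter
open Vale.Agent.P272.K Vale.Agent.P285.H281.FD Vale.Agent.P300.Final Vale.Agent.P299G40
open Vale.Agent.P009.AV (aff)
open Vale.Agent.P280A.C66 Vale.Agent.P280C88

noncomputable section

namespace Vale.Agent.P280A

theorem eq_of_aff {N : ℕ} {y z : PN N} {i l : Fin (N + 1)} (hi : y.rep i ≠ 0) (hl : z.rep l ≠ 0) :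
    y = z ↔ ∀ j k, aff i y j * aff l z k - aff i y k * aff l z j = 0 := by
  constructor
  · rintro rfl j k
    simp only [aff]
    ring
  · intro h
    rw [← y.mk_rep, ← z.mk_rep, Projectivization.mk_eq_mk_iff']
    refine ⟨y.rep l / z.rep l, funext fun j => ?_⟩
    have := h j l
    simp only [aff] at this
    simp only [Pi.smul_apply, smul_eq_mul]
    field_simp at this ⊢
    linear_combination -this

theorem mor_an {N K : ℕ} {C : Set (PN K)} {S : Type} [TopologicalSpace S] [ChartedSpace (Cm 1) S]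
    [IsManifold 𝓘(ℂ, Cm 1) ω S] {Θ : S → PN K} {f : PN K → PN N} (hA : IsAnalytification 1 C Θ)
    (hf : IsMor C f) (p : S) {i : Fin (N + 1)} (hi : (f (Θ p)).rep i ≠ 0) :
    (∀ᶠ c in 𝓝 p, (f (Θ c)).rep i ≠ 0) ∧ ∀ j, An (fun c => aff i (f (Θ c)) j) p := by
  have hm : ∀ c, Θ c ∈ C := fun c => hA.2.2 ▸ Set.mem_range_self c
  obtain ⟨F, d, hF, h0, hy⟩ := hf _ (hm p)
  obtain ⟨a1, a2⟩ := an_aff (f := id) (p := p) hA.2.1 contMDiff_id (ix_ne (Θ p))
  set l := ix (Θ p)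
  have an : ∀ j, An (fun c => eval (aff l (Θ c)) (F j)) p := fun j => An.eval a2 _
  have rep : ∀ c, (Θ c).rep l ≠ 0 → val F (Θ c) ≠ 0 → ∃ t : ℂ, t ≠ 0 ∧
      ∀ j, (f (Θ c)).rep j = t * eval (aff l (Θ c)) (F j) := fun c h1 h2 => by
    obtain ⟨a, ha⟩ := Projectivization.exists_smul_eq_mk_rep ℂ (val F (Θ c)) h2
    refine ⟨a * (Θ c).rep l ^ d, mul_ne_zero a.ne_zero (pow_ne_zero _ h1), fun j => ?_⟩
    rw [hy _ (hm c) h2, ← ha, P299G50.eval_aff (hF j), inv_pow]
    change (a : ℂ) * eval (Θ c).rep (F j) = _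
    field_simp
  obtain ⟨t, -, ht⟩ := rep p (ix_ne _) h0
  have h1 : eval (aff l (Θ p)) (F i) ≠ 0 := right_ne_zero_of_mul (ht i ▸ hi)
  have ev : ∀ᶠ c in 𝓝 p, eval (aff l (Θ c)) (F i) ≠ 0 ∧ ∃ t : ℂ, t ≠ 0 ∧
      ∀ j, (f (Θ c)).rep j = t * eval (aff l (Θ c)) (F j) := by
    filter_upwards [a1, (an i).cont.eventually_ne h1] with c c1 c2
    refine ⟨c2, rep c c1 fun h => c2 ?_⟩
    rw [P299G50.eval_aff (hF i), show eval (Θ c).rep (F i) = 0 from congrFun h i, mul_zero]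
  refine ⟨ev.mono fun c ⟨c1, t, c2, c3⟩ => (c3 i).symm ▸ mul_ne_zero c2 c1, fun j =>
    an_congr (g := fun c => eval (aff l (Θ c)) (F j) / eval (aff l (Θ c)) (F i))
      (fun e he => (an j e he).div (an i e he) (by rwa [e.left_inv he.2])) ?_⟩
  filter_upwards [ev] with c ⟨_, t, c2, c3⟩
  change _ = _ / _
  rw [c3, c3, mul_div_mul_left _ _ c2]

theorem lift88 (tan : TAN) : LIFT := by
  intro n N K Z X _ _ _ _ _ Φ C S _ _ _ _ _ Θ f hZ hA hB hf hm
  have hΦ := hA.2.1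
  choose φ hφ using fun c : S => (hA.2.2 ▸ hm (hB.2.2 ▸ Set.mem_range_self c) : f (Θ c) ∈ Set.range Φ)
  have loc : ∀ x i, (Φ x).rep i ≠ 0 → (∀ᶠ y in 𝓝 x, (Φ y).rep i ≠ 0) ∧
      ∀ j, ContinuousAt (fun y => aff i (Φ y) j) x := fun x i hi => by
    have he := at_chart (n := n) x
    obtain ⟨h1, h2⟩ := P299G50.aff_holo hΦ he hi
    have hc := (chartAt (Cm n) x).continuousAt he.2
    have hl := (chartAt (Cm n) x).eventually_left_inverse he.2
    refine ⟨?_, fun j => ((h2 j).continuousAt.comp hc).congr ?_⟩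
    · filter_upwards [hc.eventually h1, hl] with y a b using b ▸ a
    · filter_upwards [hl] with y b
      rw [Function.comp, b]
  have cont : Continuous φ := by
    suffices H : IsClosed {q : S × X | φ q.1 = q.2} by
      refine continuous_iff_isClosed.2 fun T hT => ?_
      convert isClosedMap_fst_of_compactSpace _ (H.inter (hT.preimage continuous_snd)) using 1
      ext c
      exact ⟨fun h => ⟨(c, φ c), ⟨rfl, h⟩, rfl⟩, fun ⟨q, ⟨h1, h2⟩, h3⟩ => by
        rw [Set.mem_preimage, ← h3, show φ q.1 = q.2 from h1]; exact h2⟩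
    rw [← isOpen_compl_iff, isOpen_iff_eventually]
    rintro ⟨c, x⟩ h
    have h1 : Φ x ≠ f (Θ c) := fun e => h (hA.1 ((hφ c).trans e.symm))
    obtain ⟨a1, a2⟩ := loc x _ (ix_ne (Φ x))
    obtain ⟨b1, b2⟩ := mor_an hB hf c (ix_ne (f (Θ c)))
    obtain ⟨j, k, hjk⟩ : ∃ j k, aff (ix (Φ x)) (Φ x) j * aff (ix (f (Θ c))) (f (Θ c)) k -
        aff (ix (Φ x)) (Φ x) k * aff (ix (f (Θ c))) (f (Θ c)) j ≠ 0 := by
      by_contra hc
      push Not at hc
      exact h1 ((eq_of_aff (ix_ne _) (ix_ne _)).2 hc)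
    have A : ∀ j, ContinuousAt (fun q : S × X => aff (ix (Φ x)) (Φ q.2) j) (c, x) := fun j =>
      ContinuousAt.comp (g := fun y => aff (ix (Φ x)) (Φ y) j) (a2 j) continuousAt_snd
    have B : ∀ j, ContinuousAt (fun q : S × X => aff (ix (f (Θ c))) (f (Θ q.1)) j) (c, x) := fun j =>
      ContinuousAt.comp (g := fun y => aff (ix (f (Θ c))) (f (Θ y)) j) (b2 j).cont continuousAt_fst
    filter_upwards [(((A j).mul (B k)).sub ((A k).mul (B j))).eventually_ne hjk,
      (continuousAt_snd (p := (c, x))).eventually a1, (continuousAt_fst (p := (c, x))).eventually b1]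
      with q q1 q2 q3 q4
    exact q1 ((eq_of_aff q2 q3).1 (by rw [← hφ, show φ q.1 = q.2 from q4]) j k)
  refine ⟨φ, fun p => ?_, hφ⟩
  have he := at_chart (n := n) (φ p)
  have hi := ix_ne (Φ (φ p))
  set e := chartAt (Cm n) (φ p) with hedef
  set i := ix (Φ (φ p))
  have hF : ContDiffAt ℂ ω (fun z => aff i (Φ (e.symm z))) (e (φ p)) :=
    contDiffAt_pi.2 (P299G50.aff_holo hΦ he hi).2
  obtain ⟨g, hg⟩ := (dAff Φ e i (φ p)).toLinearMap.exists_leftInverse_of_injective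
    (LinearMap.ker_eq_bot'.2 fun ξ hξ => ((tan n N Z X Φ hZ hA e _ i he hi).2.1 0 ξ (by
      rw [zero_smul, zero_add, show dAff Φ e i (φ p) ξ = 0 from hξ, smul_zero])).2)
  let G := LinearMap.toContinuousLinearMap g
  have h1 : ContDiffAt ℂ ω (fun z => G (aff i (Φ (e.symm z)))) (e (φ p)) :=
    G.contDiff.contDiffAt.comp _ hF
  have h2 : HasFDerivAt (fun z => G (aff i (Φ (e.symm z))))
      (ContinuousLinearEquiv.refl ℂ (Cm n) : Cm n →L[ℂ] Cm n) (e (φ p)) := by
    refine (G.hasFDerivAt.comp _ (hF.differentiableAt (by simp)).hasFDerivAt).congr_fderiv ?_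
    ext1 ξ
    exact LinearMap.congr_fun hg ξ
  have h3 := h1.to_localInverse h2 (by simp)
  have h4 := (h1.hasStrictFDerivAt' h2 (by simp)).eventually_left_inverse
  obtain ⟨-, b2⟩ := mor_an hB hf p (hφ p ▸ hi)
  have hp := at_chart (n := 1) p
  have h5 : ContDiffAt ℂ ω (fun t => G (aff i (f (Θ ((chartAt (Cm 1) p).symm t)))))
      (chartAt (Cm 1) p p) :=
    G.contDiff.contDiffAt.comp _ (AnalyticAt.pi fun j => b2 j _ hp).contDiffAt
  have h6 := ContDiffAt.comp (chartAt (Cm 1) p p) (by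
    rw [(chartAt (Cm 1) p).left_inv hp.2, ← hφ p]
    rw [e.left_inv he.2] at h3
    exact h3) h5
  rw [contMDiffAt_iff]
  refine ⟨cont.continuousAt, ?_⟩
  simp only [mfld_simps, contDiffWithinAt_univ]
  refine h6.congr_of_eventuallyEq ?_
  have t1 : Tendsto (fun t => φ ((chartAt (Cm 1) p).symm t)) (𝓝 (chartAt (Cm 1) p p)) (𝓝 (φ p)) :=
    cont.continuousAt.tendsto.comp (by
      simpa only [ContinuousAt, (chartAt (Cm 1) p).left_inv hp.2] using
        (chartAt (Cm 1) p).continuousAt_symm ((chartAt (Cm 1) p).map_source hp.2))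
  filter_upwards [((e.continuousAt he.2).tendsto.comp t1).eventually h4,
    t1.eventually (e.eventually_left_inverse he.2)] with t k1 k2
  simp only [Function.comp] at k1 ⊢
  rw [k2, hφ] at k1
  exact k1.symm

end Vale.Agent.P280A

end
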